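import Mathlib
import Vale.Agent.P026.H267.Main
import Vale.Agent.P026.H267.BadPairs

/-!
# Widened zero-free regions for almost all Dirichlet characters

Consequences of the log-free density theorem of Vinogradov–Korobov type proved in the imported
files.
-/

open Finset

namespace Vale.Agent.Results.P026.AlmostAllChars

/-- Dirichlet characters of all moduli `q ≥ 1`. -/
abbrev Chr := Σ q : ℕ+, DirichletCharacter ℂ (q : ℕ)

/-- The modulus of `χ`, as a real number. -/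
noncomputable def modulus (χ : Chr) : ℝ := ((χ.1 : ℕ) : ℝ)

/-- `L(s, χ)`, Mathlib's analytically continued Dirichlet `L`-function (the Riemann zeta function
for the character modulo `1`). -/
noncomputable def L (χ : Chr) : ℂ → ℂ := DirichletCharacter.LFunction χ.2

/-- `L(s, χ)` has a zero `ρ` with `|Im ρ| ≤ exp (exp (Q^c))` and
`Re ρ ≥ 1 - c log Q / (u^{2/3} (log Q + log u)^{1/3})`, where `u = log (Q + |Im ρ|)`. -/
def BadChr (c Q : ℝ) (χ : Chr) : Prop :=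
  ∃ ρ : ℂ, L χ ρ = 0 ∧ |ρ.im| ≤ Real.exp (Real.exp (Q ^ c)) ∧
    1 - c * Real.log Q / (Real.log (Q + |ρ.im|) ^ (2 / 3 : ℝ) *
      (Real.log Q + Real.log (Real.log (Q + |ρ.im|))) ^ (1 / 3 : ℝ)) ≤ ρ.re

/-- `L(s, χ)`, `χ` of modulus `q`, has a zero `ρ` with `|Im ρ| < 2^(k+1)`, and `|Im ρ| ≥ 2^k` if
`k ≥ 1`, and `Re ρ ≥ 1 - c ((log q + log (k + 2)) / (log q + k + 1))^{2/3}`. -/
def BadPair (c : ℝ) (χ : Chr) (k : ℕ) : Prop :=
  ∃ ρ : ℂ, L χ ρ = 0 ∧ |ρ.im| < (2 : ℝ) ^ (k + 1) ∧ (k = 0 ∨ (2 : ℝ) ^ k ≤ |ρ.im|) ∧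
    1 - c * ((Real.log (modulus χ) + Real.log ((k : ℝ) + 2)) /
      (Real.log (modulus χ) + k + 1)) ^ (2 / 3 : ℝ) ≤ ρ.re

/-- **Main theorem.**

(A) For every `ε > 0` there is `c > 0` such that all but `O(Q^ε)` primitive characters of modulus at
most `Q` have no zeros in the widened region up to height `exp (exp (Q^c))`.

(B) For every `ε > 0` there is `c > 0` such that there are at most `O((Q K)^ε)` bad pairs `(χ, k)`,
`χ` primitive of modulus at most `Q`, `k ≤ K`. -/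
theorem result :
    (∀ ε : ℝ, 0 < ε → ∃ c C : ℝ, 0 < c ∧ ∀ Q : ℝ, 3 ≤ Q →
      (({χ : Chr | χ.2.IsPrimitive ∧ modulus χ ≤ Q ∧ BadChr c Q χ}.encard : ℕ∞) : ENNReal) ≤
        ENNReal.ofReal (C * Q ^ ε)) ∧
    (∀ ε : ℝ, 0 < ε → ∃ c C : ℝ, 0 < c ∧ ∀ Q : ℝ, 1 ≤ Q → ∀ K : ℕ, 1 ≤ K →
      (({p : Chr × ℕ | p.1.2.IsPrimitive ∧ modulus p.1 ≤ Q ∧ p.2 ≤ K ∧
        BadPair c p.1 p.2}.encard : ℕ∞) : ENNReal) ≤ ENNReal.ofReal (C * (Q * K) ^ ε)) := by
  obtain ⟨C, hC⟩ := Vale.Agent.P026.H267.density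
  refine ⟨?_, ?_⟩
  · intro ε hε
    obtain ⟨c, hc, C', h⟩ := Vale.Agent.P026.H267.almost_all_characters hC hε
    refine ⟨c, max C' 0, hc, fun Q hQ => ?_⟩
    have hQ0 : 0 ≤ Q ^ ε := by positivity
    apply Vale.Agent.P026.H267.encard_le_of_finset (by positivity)
    intro F hF
    refine (h Q hQ F (fun χ hχ => ⟨(hF χ hχ).2.1, (hF χ hχ).1, (hF χ hχ).2.2⟩)).trans ?_
    exact mul_le_mul_of_nonneg_right (le_max_left _ _) hQ0
  · intro ε hε
    obtain ⟨c, hc, C', hC', h⟩ := Vale.Agent.P026.H267.few_bad_pairs hC hε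
    refine ⟨c, C', hc, fun Q hQ K hK => ?_⟩
    apply Vale.Agent.P026.H267.encard_le_of_finset (by positivity)
    intro P hP
    exact h Q hQ K hK P (fun p hp => hP p hp)

end Vale.Agent.Results.P026.AlmostAllChars
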