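import Mathlib
import Vale.Agent.P026.H267.Main
import Vale.Agent.P026.H267.Few

/-!
# A log-free density theorem of Vinogradov–Korobov type for all Dirichlet `L`-functions

Inputs proved in the imported files: Vinogradov's mean value theorem and the resulting bound for
`∑ (n + a)^{it}`, partial sums of `L(s, χ)` near `Re s = 1`, the Barban–Vehov weights, detection of
zeros by a weighted Dirichlet polynomial, a duality (large values) argument, and local counts of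
zeros.
-/

open Finset

namespace Vale.Agent.Results.P026.LogFreeVK

/-- Dirichlet characters of all moduli `q ≥ 1`. -/
abbrev Chr := Σ q : ℕ+, DirichletCharacter ℂ (q : ℕ)

/-- The modulus of `χ`, as a real number. -/
noncomputable def modulus (χ : Chr) : ℝ := ((χ.1 : ℕ) : ℝ)

/-- `L(s, χ)`, Mathlib's analytically continued Dirichlet `L`-function (the Riemann zeta function
for the character modulo `1`). -/
noncomputable def L (χ : Chr) : ℂ → ℂ := DirichletCharacter.LFunction χ.2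

/-- `VK T = (log T)^{2/3} (log log T)^{1/3}`. -/
noncomputable def VK (T : ℝ) : ℝ := Real.log T ^ (2 / 3 : ℝ) * Real.log (Real.log T) ^ (1 / 3 : ℝ)

/-- `W χ ρ = log q + VK (|Im ρ| + 3)`, where `q` is the modulus of `χ`. -/
noncomputable def W (χ : Chr) (ρ : ℂ) : ℝ := Real.log (modulus χ) + VK (|ρ.im| + 3)

open Classical in
/-- The number of pairs `(χ, ρ)` with `χ` primitive, `P χ ρ`, and `ρ` a zero of `L(s, χ)`, counted
with the multiplicity of the zero (the order of vanishing; non-zeros contribute `0`). -/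
noncomputable def zeros (P : Chr → ℂ → Prop) : ENNReal :=
  ∑' x : Chr × ℂ, if x.1.2.IsPrimitive ∧ P x.1 x.2 then
    ((analyticOrderAt (L x.1) x.2 : ℕ∞) : ENNReal) else 0

/-- The scale `k` is bad for `c`: for some primitive `χ` with `log (modulus χ) ≤ VK (2^k)`, `L(s, χ)`
has a zero `ρ` with `2^k ≤ |Im ρ| < 2^(k+1)` and
`Re ρ ≥ 1 - c (log log 2^k / log 2^k)^{2/3}`. -/
def Bad (c : ℝ) (k : ℕ) : Prop :=
  ∃ (χ : Chr) (ρ : ℂ), χ.2.IsPrimitive ∧ Real.log (modulus χ) ≤ VK (2 ^ k) ∧ L χ ρ = 0 ∧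
    (2 : ℝ) ^ k ≤ |ρ.im| ∧ |ρ.im| < (2 : ℝ) ^ (k + 1) ∧
    1 - c * (Real.log (Real.log (2 ^ k)) / Real.log (2 ^ k)) ^ (2 / 3 : ℝ) ≤ ρ.re

open Vale.Agent.P026.H267 Vale.Agent.P026.H392 in
lemma LL_eq (Q T : ℝ) : LL Q T = Real.log Q + VK T := rfl

open Vale.Agent.P026.H267 in
lemma LL_one_eq (T : ℝ) : Vale.Agent.P026.H392.LL 1 T = VK T := by
  rw [LL_eq, Real.log_one, zero_add]

open Vale.Agent.P026.H267 in
lemma zeroCount_eq (Q T d : ℝ) :
    zeroCount Q T d = zeros (fun χ ρ => modulus χ ≤ Q ∧ 1 - d ≤ ρ.re ∧ |ρ.im| ≤ T) := by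
  classical
  unfold zeroCount zeros
  refine tsum_congr fun x => ?_
  by_cases h : InRegion Q T d x
  · rw [if_pos h, if_pos]
    · rfl
    · unfold InRegion at h
      unfold modulus
      exact ⟨h.2.1, h.1, h.2.2⟩
  · rw [if_neg h, if_neg]
    intro h2
    apply h
    unfold modulus at h2
    unfold InRegion
    exact ⟨h2.2.1, h2.1, h2.2.2⟩

open Vale.Agent.P026.H267 in
lemma WW_eq (χ : Chr) (ρ : ℂ) : WW (χ, ρ) = W χ ρ := by
  unfold WW W modulus
  rw [LL_one_eq]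

open Vale.Agent.P026.H267 in
lemma wCount_eq (K V : ℝ) :
    wCount K V = zeros (fun χ ρ => W χ ρ ≤ V ∧ 3 / 4 ≤ ρ.re ∧ 1 - K / W χ ρ ≤ ρ.re) := by
  classical
  unfold wCount zeros
  refine tsum_congr fun x => ?_
  obtain ⟨χ, ρ⟩ := x
  by_cases h : InW K (χ, ρ) ∧ WW (χ, ρ) ≤ V
  · rw [if_pos h, if_pos]
    · rfl
    · unfold InW at h
      rw [WW_eq] at h
      exact ⟨h.1.1, h.2, h.1.2.1, h.1.2.2⟩
  · rw [if_neg h, if_neg]
    intro h2
    apply h
    unfold InW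
    rw [WW_eq]
    exact ⟨⟨h2.1, h2.2.2.1, h2.2.2.2⟩, h2.2.1⟩

open Vale.Agent.P026.H267 in
lemma bad_iff (c : ℝ) (k : ℕ) : BadScale c k ↔ Bad c k := by
  unfold BadScale Bad modulus
  rw [LL_one_eq]
  constructor
  · rintro ⟨⟨χ, ρ⟩, h⟩
    exact ⟨χ, ρ, h⟩
  · rintro ⟨χ, ρ, h⟩
    exact ⟨⟨χ, ρ⟩, h⟩

open Classical in
/-- **Main theorem.**

(A) Log-free density theorem of Vinogradov–Korobov type, uniform in both aspects.

(B) For every `K`, at most `O_K(log V)` zeros of all primitive `L`-functions with `W χ ρ ≤ V` lie in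
the `K` times widened Vinogradov–Korobov region `Re ρ ≥ 1 - K / W χ ρ`.

(C) At all but `O(N^ε)` of the dyadic scales `2^k`, `k ≤ N`, there are no zeros with
`Re ρ ≥ 1 - c (log log 2^k / log 2^k)^{2/3}`. -/
theorem result :
    (∃ C : ℝ, 0 < C ∧ ∀ Q T d : ℝ, 1 ≤ Q → 3 ≤ T → 0 ≤ d → d ≤ 1 / 4 →
      zeros (fun χ ρ => modulus χ ≤ Q ∧ 1 - d ≤ ρ.re ∧ |ρ.im| ≤ T) ≤
        ENNReal.ofReal (C * Real.exp (C * (d * (Real.log Q + VK T) +
          d ^ (3 / 2 : ℝ) * Real.log T)))) ∧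
    (∀ K : ℝ, 0 ≤ K → ∃ C : ℝ, ∀ V : ℝ, 2 ≤ V →
      zeros (fun χ ρ => W χ ρ ≤ V ∧ 3 / 4 ≤ ρ.re ∧ 1 - K / W χ ρ ≤ ρ.re) ≤
        ENNReal.ofReal (C * Real.log V)) ∧
    (∀ ε : ℝ, 0 < ε → ∃ c C : ℝ, 0 < c ∧ ∀ N : ℕ, 1 ≤ N →
      ((((Finset.Icc 2 N).filter (fun k => Bad c k)).card : ℕ) : ℝ) ≤ C * (N : ℝ) ^ ε) := by
  obtain ⟨C, hC⟩ := Vale.Agent.P026.H267.density
  refine ⟨⟨C, hC.1, ?_⟩, ?_, ?_⟩
  · intro Q T d hQ hT hd hd4
    rw [← zeroCount_eq]
    exact Vale.Agent.P026.H267.zeroCount_le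
      (fun S hS => hC.2 Q hQ T hT d hd hd4 S hS)
  · intro K hK
    obtain ⟨C', h⟩ := Vale.Agent.P026.H267.few_w hC K hK
    refine ⟨C', fun V hV => ?_⟩
    rw [← wCount_eq]
    exact h V hV
  · intro ε hε
    obtain ⟨c, hc, C', h⟩ := Vale.Agent.P026.H267.almost_all_scales hC hε
    refine ⟨c, C', hc, fun N hN => ?_⟩
    have h1 := h N hN
    have h2 : (Finset.Icc 2 N).filter (fun k => Bad c k)
        = (Finset.Icc 2 N).filter (fun k => Vale.Agent.P026.H267.BadScale c k) := by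
      apply Finset.filter_congr
      intro k _
      exact (bad_iff c k).symm
    rw [h2]
    exact h1

end Vale.Agent.Results.P026.LogFreeVK
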