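import Mathlib
import Vale.Agent.P026.H267.Main
import Vale.Agent.P026.H267.Repulse
import Vale.Agent.P026.H392.DHfinal

/-!
# One exceptional zero at most, and it repels all others: Vinogradov–Korobov form

(1) is the uniform Vinogradov–Korobov zero-free region together with the Landau–Page theorem for
it; (2) is the exceptional log-free density theorem (it contains the Deuring–Heilbronn
phenomenon); (3) is a dichotomy deduced from them.
-/

open Finset

namespace Vale.Agent.Results.P026.Repulsion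

/-- Dirichlet characters of all moduli `q ≥ 1`. -/
abbrev Chr := Σ q : ℕ+, DirichletCharacter ℂ (q : ℕ)

/-- The modulus of `χ`, as a real number. -/
noncomputable def modulus (χ : Chr) : ℝ := ((χ.1 : ℕ) : ℝ)

/-- `L(s, χ)`, Mathlib's analytically continued Dirichlet `L`-function (the Riemann zeta function
for the character modulo `1`). -/
noncomputable def L (χ : Chr) : ℂ → ℂ := DirichletCharacter.LFunction χ.2

/-- `VK T = (log T)^{2/3} (log log T)^{1/3}`. -/
noncomputable def VK (T : ℝ) : ℝ := Real.log T ^ (2 / 3 : ℝ) * Real.log (Real.log T) ^ (1 / 3 : ℝ)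

open Classical in
/-- The number of pairs `(χ, ρ)` with `χ` primitive, `P χ ρ`, and `ρ` a zero of `L(s, χ)`, counted
with the multiplicity of the zero (the order of vanishing; non-zeros contribute `0`). -/
noncomputable def zeros (P : Chr → ℂ → Prop) : ENNReal :=
  ∑' x : Chr × ℂ, if x.1.2.IsPrimitive ∧ P x.1 x.2 then
    ((analyticOrderAt (L x.1) x.2 : ℕ∞) : ENNReal) else 0

/-- `χ` is a primitive quadratic character and `β < 1` is a real zero of `L(s, χ)`. -/
def RealZero (χ : Chr) (β : ℝ) : Prop :=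
  χ.2.IsPrimitive ∧ χ.2 ^ 2 = 1 ∧ χ.2 ≠ 1 ∧ β < 1 ∧ L χ (β : ℂ) = 0

open Vale.Agent.P026.H267 Vale.Agent.P026.H392 in
lemma LL_eq (Q T : ℝ) : LL Q T = Real.log Q + VK T := rfl

open Vale.Agent.P026.H267 in
lemma LL_one_eq (T : ℝ) : Vale.Agent.P026.H392.LL 1 T = VK T := by
  rw [LL_eq, Real.log_one, zero_add]

open Vale.Agent.P026.H267 in
/-- Passing from finite sets to the infinite sum. -/
lemma zeros_le {P : Chr → ℂ → Prop} {B : ℝ}
    (h : ∀ S : Finset (Chr × ℂ), (∀ x ∈ S, x.1.2.IsPrimitive ∧ P x.1 x.2) →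
      ∑ x ∈ S, (zmul x : ℝ) ≤ B) : zeros P ≤ ENNReal.ofReal B := by
  classical
  unfold zeros
  rw [ENNReal.tsum_eq_iSup_sum]
  apply iSup_le
  intro S
  have h1 : ∑ x ∈ S, (if x.1.2.IsPrimitive ∧ P x.1 x.2 then
      ((analyticOrderAt (L x.1) x.2 : ℕ∞) : ENNReal) else 0)
      = ∑ x ∈ S.filter (fun x => x.1.2.IsPrimitive ∧ P x.1 x.2), ((zmul x : ℕ) : ENNReal) := by
    rw [← Finset.sum_filter]
    refine Finset.sum_congr rfl fun x _ => ?_
    have : analyticOrderAt (L x.1) x.2 = (zmul x : ℕ∞) := zord_eq x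
    rw [this]
    simp
  have h2 := h (S.filter (fun x => x.1.2.IsPrimitive ∧ P x.1 x.2))
    (fun x hx => (Finset.mem_filter.1 hx).2)
  calc ∑ x ∈ S, (if x.1.2.IsPrimitive ∧ P x.1 x.2 then
        ((analyticOrderAt (L x.1) x.2 : ℕ∞) : ENNReal) else 0)
      = ENNReal.ofReal (∑ x ∈ S.filter (fun x => x.1.2.IsPrimitive ∧ P x.1 x.2),
          (zmul x : ℝ)) := by
        rw [h1, ENNReal.ofReal_sum_of_nonneg (fun _ _ => Nat.cast_nonneg _)]
        refine Finset.sum_congr rfl fun x _ => ?_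
        rw [ENNReal.ofReal_natCast]
    _ ≤ ENNReal.ofReal B := ENNReal.ofReal_le_ofReal h2

/-- **Main theorem.**

(1) Uniform Vinogradov–Korobov region with at most one (simple, real, quadratic) exception.

(2) Exceptional log-free density theorem: a real zero `β₁` of a quadratic `L`-function makes all
other zeros rarer by the factor `(1 - β₁) (log Q + VK T)`.

(3) Either there are no Siegel zeros, or for every `K` there are arbitrarily large `T` with at most
one zero in the `K` times widened Vinogradov–Korobov region. -/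
theorem result :
    (∃ c : ℝ, 0 < c ∧ ∀ Q T : ℝ, 1 ≤ Q → 3 ≤ T →
      zeros (fun χ ρ => modulus χ ≤ Q ∧ |ρ.im| ≤ T ∧ 1 - c / (Real.log Q + VK T) ≤ ρ.re) ≤ 1 ∧
      ∀ (χ : Chr) (ρ : ℂ), χ.2.IsPrimitive → modulus χ ≤ Q → |ρ.im| ≤ T →
        1 - c / (Real.log Q + VK T) ≤ ρ.re → L χ ρ = 0 → ρ.im = 0 ∧ RealZero χ ρ.re) ∧
    (∃ C d₀ : ℝ, 0 < C ∧ 0 < d₀ ∧ ∀ Q T d : ℝ, 1 ≤ Q → 3 ≤ T → 0 ≤ d → d ≤ d₀ →
      ∀ (χ₁ : Chr) (β₁ : ℝ), RealZero χ₁ β₁ → modulus χ₁ ≤ Q →
        zeros (fun χ ρ => (χ, ρ) ≠ (χ₁, (β₁ : ℂ)) ∧ modulus χ ≤ Q ∧ |ρ.im| ≤ T ∧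
            1 - d ≤ ρ.re) ≤
          ENNReal.ofReal (C * ((1 - β₁) * (Real.log Q + VK T)) *
            Real.exp (C * (d * (Real.log Q + VK T) + d ^ (3 / 2 : ℝ) * Real.log T)))) ∧
    ((∃ c : ℝ, 0 < c ∧ ∀ (χ : Chr) (β : ℝ), RealZero χ β → β ≤ 1 - c / Real.log (modulus χ)) ∨
      (∀ K T₀ : ℝ, ∃ T : ℝ, T₀ ≤ T ∧ 3 ≤ T ∧
        zeros (fun χ ρ => Real.log (modulus χ) ≤ VK T ∧ |ρ.im| ≤ T ∧
          1 - K / VK T ≤ ρ.re) ≤ 1)) := by
  obtain ⟨C₀, hD⟩ := Vale.Agent.P026.H267.density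
  obtain ⟨c₀, hc₀, hV⟩ := Vale.Agent.P026.H17.vk_region
  obtain ⟨c, C, d₀, hc, hC, hd₀, hDH⟩ := Vale.Agent.P026.H392.deuring_heilbronn
  have hone : (1 : ENNReal) = ENNReal.ofReal 1 := by simp
  refine ⟨⟨c₀, hc₀, fun Q T hQ hT => ⟨?_, ?_⟩⟩, ?_, ?_⟩
  · rw [hone]
    refine zeros_le fun S hS => Vale.Agent.P026.H267.vk_count hV hQ hT (fun x hx => ?_)
    obtain ⟨hp, hq, him, hre⟩ := hS x hx
    exact ⟨hq, hp, hre, him⟩
  · intro χ ρ hp hq him hre h0
    obtain ⟨h1, h2, h3, -⟩ := (hV Q T hQ hT).1 (χ, ρ) hq hp h0 him hre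
    have h4 : ρ = ((ρ.re : ℝ) : ℂ) := by
      apply Complex.ext
      · simp
      · simpa using h3
    refine ⟨h3, hp, h2, h1, ?_, ?_⟩
    · by_contra hcon
      push Not at hcon
      exact DirichletCharacter.LFunction_ne_zero_of_one_le_re χ.2 (s := ρ) (Or.inl h1) hcon h0
    · rw [← h4]; exact h0
  · obtain ⟨C', hC', h⟩ := Vale.Agent.P026.H267.exceptional_density hD hc hC hDH
    refine ⟨C', min d₀ (1 / 4), hC', lt_min hd₀ (by norm_num), ?_⟩
    intro Q T d hQ hT hd hdd χ₁ β₁ hR hq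
    obtain ⟨hp, hsq, hne, hβ, h0⟩ := hR
    refine zeros_le fun S hS => ?_
    have := h Q hQ T hT d hd (hdd.trans (min_le_left _ _)) (hdd.trans (min_le_right _ _)) χ₁ hq hp
      hsq hne (1 - β₁) (by linarith)
      (by rw [show (1 - (1 - β₁) : ℝ) = β₁ by ring]; exact h0) S (fun x hx => by
        obtain ⟨hp', hne', hq', him', hre'⟩ := hS x hx
        refine ⟨⟨hq', hp', hre', him'⟩, ?_⟩
        rw [show (1 - (1 - β₁) : ℝ) = β₁ by ring]
        exact hne')
    exact this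
  · rcases Vale.Agent.P026.H267.dichotomy_count hc hC hd₀ hc₀ hDH hV with h | h
    · left
      obtain ⟨c, hc, h⟩ := h
      refine ⟨c, hc, fun χ β hR => ?_⟩
      obtain ⟨hp, hsq, hne, hβ, h0⟩ := hR
      by_contra hcon
      push Not at hcon
      exact h χ hp hsq hne β hcon hβ h0
    · right
      intro K T₀
      obtain ⟨T, hT, hT3, h⟩ := h K T₀
      refine ⟨T, hT, hT3, ?_⟩
      rw [hone]
      refine zeros_le fun S hS => h S fun x hx => ?_
      rw [LL_one_eq]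
      exact hS x hx

end Vale.Agent.Results.P026.Repulsion
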